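import Vale.Agent.P120.Main

/-!
# P120: uniform rectifiability from bounded Riesz transforms, in every codimension
-/

namespace Vale.Agent.Results.P120.DavidSemmes

/-- For `1 ≤ n < d` every `n`-AD-regular measure on `ℝᵈ` with bounded Riesz transform is uniformly
`n`-rectifiable. -/
theorem result : ∀ n d : ℕ, 1 ≤ n → n < d → Vale.Agent.P120.DavidSemmes n d :=
  fun _ _ hn hd => Vale.Agent.P120.davidSemmes hn hd

end Vale.Agent.Results.P120.DavidSemmes
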